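import Vale.Agent.P327.Borel.Gadget

/-! Reductions read from codes, their measurability, columns, and sections of residual sets. -/

namespace Vale.Agent.P327.Borel

open Nat.Partrec Filter Homeo Topology MeasureTheory

/-- Reducibility between reals. -/
abbrev TLe (y z : ℕ → Bool) : Prop := TuringReducible (orc y) (orc z)

/-- Equal degree. -/
def TEq (y z : ℕ → Bool) : Prop := TLe y z ∧ TLe z y

theorem TLe.rfl' {y : ℕ → Bool} : TLe y y := TuringReducible.refl _

theorem TEq.rfl' {y : ℕ → Bool} : TEq y y := ⟨TLe.rfl', TLe.rfl'⟩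

theorem TEq.symm {y z : ℕ → Bool} (h : TEq y z) : TEq z y := ⟨h.2, h.1⟩

theorem TEq.trans {x y z : ℕ → Bool} (h : TEq x y) (h' : TEq y z) : TEq x z :=
  ⟨TuringReducible.trans h.1 h'.1, TuringReducible.trans h'.2 h.2⟩

/-- `c` outputs `v` at `n` from an initial segment of `z`. -/
def Outs (c : Code) (z : ℕ → Bool) (n v : ℕ) : Prop :=
  ∃ L, v ∈ c.eval (Encodable.encode ((pre z L, n) : List Bool × ℕ))

/-- The bits read off from `c` on `z`. -/
noncomputable def Phi (c : Code) (z : ℕ → Bool) : ℕ → Bool :=
  open Classical in fun n => decide (Outs c z n 1)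

/-- `c` computes `y` from `z`. -/
def Computes (c : Code) (z y : ℕ → Bool) : Prop :=
  ∀ n v, Outs c z n v ↔ v = if y n then 1 else 0

theorem Computes.eq_phi {c : Code} {z y : ℕ → Bool} (h : Computes c z y) : y = Phi c z := by
  funext n
  cases hy : y n <;> simp [Phi, h n 1, hy]

theorem tle_iff {y z : ℕ → Bool} : TLe y z ↔ ∃ c, Computes c z y := by
  constructor
  · intro h
    obtain ⟨c, -, hc⟩ := use_code h
    exact ⟨c, fun n v => (hc n v).symm.trans (by simp [orc])⟩
  · rintro ⟨c, hc⟩
    let g : List Bool × ℕ → Option Bool := fun p =>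
      (Code.evaln p.1.length.unpair.2 c
        (Encodable.encode ((p.1.take p.1.length.unpair.1, p.2) : List Bool × ℕ))).map
        fun v => decide (v = 1)
    have hN : Primrec fun p : List Bool × ℕ => p.1.length.unpair :=
      Primrec.unpair.comp (Primrec.list_length.comp Primrec.fst)
    have hg : Computable g := by
      refine (Primrec.option_map (Code.primrec_evaln.comp
        (((Primrec.snd.comp hN).pair (Primrec.const c)).pair (Primrec.encode.comp
          ((Primrec.list_take.comp (Primrec.fst.comp hN) Primrec.fst).pair Primrec.snd)))) ?_).to_comp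
      exact (PrimrecPred.decide (Primrec.eq.comp Primrec.snd (Primrec.const 1))).to₂
    refine reducible_of_search g hg (fun K n b hb => ?_) fun n => ?_
    · simp only [g, Option.map_eq_some_iff, take_pre] at hb
      obtain ⟨v, hv, rfl⟩ := hb
      have hv' := (hc n v).1 ⟨_, Code.evaln_sound hv⟩
      cases hy : y n <;> simp [hv', hy]
    · obtain ⟨L, hL⟩ := (hc n _).2 rfl
      obtain ⟨k, hk⟩ := Code.evaln_complete.1 hL
      refine ⟨Nat.pair L k, ?_⟩
      have := Nat.left_le_pair L k
      simp only [g, pre_length, Nat.unpair_pair, take_pre, min_eq_left this, Option.isSome_map]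
      exact Option.isSome_iff_exists.2 ⟨_, hk⟩

theorem exists_phi {y z : ℕ → Bool} (h : TLe y z) : ∃ c, y = Phi c z :=
  (tle_iff.1 h).imp fun _ hc => hc.eq_phi

theorem isOpen_outs (c : Code) (n v : ℕ) : IsOpen {z | Outs c z n v} :=
  isOpen_iff_forall_mem_open.2 fun z ⟨L, hL⟩ => ⟨cyl (pre z L),
    fun y hy => ⟨L, by rwa [pre_eq_of (mem_cyl_pre.1 hy)]⟩, isOpen_cyl _,
    mem_cyl_pre.2 fun _ _ => rfl⟩

theorem measurable_outs (c : Code) (n v : ℕ) : Measurable fun z => Outs c z n v :=
  measurableSet_setOfPred.1 (isOpen_outs c n v).measurableSet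

theorem measurable_phi (c : Code) : Measurable (Phi c) :=
  measurable_pi_iff.2 fun n => measurable_to_bool (by
    have : (fun z => Phi c z n) ⁻¹' {true} = {z | Outs c z n 1} := by
      ext z; simp [Phi]
    rw [this]; exact (isOpen_outs c n 1).measurableSet)

theorem measurable_tle {X : Type*} [MeasurableSpace X] {f g : X → ℕ → Bool} (hf : Measurable f)
    (hg : Measurable g) : Measurable fun x => TLe (f x) (g x) := by
  simp only [tle_iff, Computes]
  refine Measurable.exists fun c => Measurable.forall fun n => Measurable.forall fun v => ?_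
  exact ((measurable_outs c n v).comp hg).iff
    ((measurable_of_countable fun b : Bool => v = if b then 1 else 0).comp
      ((measurable_pi_apply n).comp hf))

/-- A column under the pairing. -/
def col (G : ℕ → Bool) (n : ℕ) : ℕ → Bool := fun i => G (Nat.pair n i)

theorem col_le (G : ℕ → Bool) (n : ℕ) : TLe (col G n) G :=
  reducible_comp' (Primrec₂.natPair.comp (Primrec.const n) Primrec.id).to_comp

theorem continuous_col (n : ℕ) : Continuous fun G => col G n :=
  continuous_pi fun i => continuous_apply (Nat.pair n i)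

theorem continuous_jn_right (Z : ℕ → Bool) : Continuous fun w => jn w Z :=
  continuous_jn.comp (continuous_id.prodMk continuous_const)

/-- An open set or the complement of its closure. -/
theorem residual_open_or {X : Type*} [TopologicalSpace X] {U : Set X} (hU : IsOpen U) :
    ∀ᶠ x in residual X, x ∈ U ∨ x ∈ (closure U)ᶜ := by
  refine residual_of_dense_open (hU.union isClosed_closure.isOpen_compl) ?_
  rw [dense_iff_inter_open]
  intro W hW ⟨z, hz⟩
  by_cases hzU : z ∈ closure U
  · obtain ⟨z', h1, h2⟩ := mem_closure_iff.1 hzU W hW hz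
    exact ⟨z', h1, Or.inl h2⟩
  · exact ⟨z, hz, Or.inr hzU⟩

/-- Comeagre sets of a product have comeagre sections at comeagre points. -/
theorem residual_sections {X Y : Type*} [TopologicalSpace X] [TopologicalSpace Y]
    [SecondCountableTopology Y] {p : X × Y → Prop} (h : ∀ᶠ z in residual (X × Y), p z) :
    ∀ᶠ x in residual X, ∀ᶠ y in residual Y, p (x, y) := by
  obtain ⟨S, hSo, hSd, hSc, hS⟩ := mem_residual_iff.1 h
  have hb := TopologicalSpace.isBasis_countableBasis Y
  have key : ∀ O ∈ S, ∀ᶠ x in residual X, Dense {y | (x, y) ∈ O} := by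
    intro O hO
    have hV : ∀ V ∈ TopologicalSpace.countableBasis Y, ∀ᶠ x in residual X,
        V.Nonempty → (V ∩ {y | (x, y) ∈ O}).Nonempty := by
      intro V hV
      rcases V.eq_empty_or_nonempty with rfl | hne
      · exact Eventually.of_forall fun x h => absurd h Set.not_nonempty_empty
      have hop : IsOpen (Prod.fst '' (O ∩ Set.univ ×ˢ V)) :=
        isOpenMap_fst _ ((hSo O hO).inter (isOpen_univ.prod (hb.isOpen hV)))
      refine (eventually_of_mem (residual_of_dense_open hop ?_) fun x hx => ?_)
      · rw [dense_iff_inter_open]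
        intro W hW hWne
        obtain ⟨z, ⟨hzW, hzV⟩, hzO⟩ :=
          (hSd O hO).inter_open_nonempty _ (hW.prod (hb.isOpen hV)) (hWne.prod hne)
        exact ⟨z.1, hzW, z, ⟨hzO, trivial, hzV⟩, rfl⟩
      · obtain ⟨z, ⟨hzO, -, hzV⟩, rfl⟩ := hx
        exact fun _ => ⟨z.2, hzV, hzO⟩
    filter_upwards [(eventually_countable_ball (TopologicalSpace.countable_countableBasis Y)).2 hV]
      with x hx
    exact hb.dense_iff.2 hx
  filter_upwards [(eventually_countable_ball hSc).2 key] with x hx
  have : ∀ᶠ y in residual Y, ∀ O ∈ S, (x, y) ∈ O :=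
    (eventually_countable_ball hSc).2 fun O hO => residual_of_dense_open
      ((hSo O hO).preimage (continuous_const.prodMk continuous_id)) (hx O hO)
  exact this.mono fun y hy => hS fun O hO => hy O hO

theorem exists_of_residual {p : (ℕ → Bool) → Prop} (h : ∀ᶠ x in residual (ℕ → Bool), p x)
    {U : Set (ℕ → Bool)} (hU : IsOpen U) (hne : U.Nonempty) : ∃ x ∈ U, p x :=
  (dense_of_mem_residual h).inter_open_nonempty U hU hne

end Vale.Agent.P327.Borel
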