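import Vale.Agent.P327.Repr.Basic

/-! A map all whose column values are guessed by countably many measurable maps is locally constant
on a comeagre set. -/

namespace Vale.Agent.P327.Borel

open Filter Homeo Topology

/-- Columns below `m` from `z`, the others from `R`. -/
def mix (m : ℕ) (z R : ℕ → Bool) : ℕ → Bool := fun i => if i.unpair.1 < m then z i else R i

/-- `R` with column `n` replaced by `x`. -/
def rep (n : ℕ) (q : (ℕ → Bool) × (ℕ → Bool)) : ℕ → Bool :=
  fun i => if i.unpair.1 = n then q.1 i.unpair.2 else q.2 i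

theorem continuous_rep (n : ℕ) : Continuous (rep n) :=
  continuous_pi fun i => by
    unfold rep
    split_ifs <;> fun_prop

theorem isOpenMap_rep (n : ℕ) : IsOpenMap (rep n) := by
  refine IsOpenMap.of_sections fun q =>
    ⟨fun v => (col v n, fun i => if i.unpair.1 = n then q.2 i else v i), ?_, ?_, fun v => ?_⟩
  · refine ((continuous_col n).prodMk (continuous_pi fun i => ?_)).continuousAt
    split_ifs <;> fun_prop
  · refine Prod.ext (funext fun i => ?_) (funext fun i => ?_)
    · simp [col, rep]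
    · by_cases h : i.unpair.1 = n <;> simp [rep, h]
  · funext i
    by_cases h : i.unpair.1 = n
    · simp [rep, col, h]
      rw [← h, Nat.pair_unpair]
    · simp [rep, h]

theorem mix_open (m : ℕ) : Continuous (fun q : (ℕ → Bool) × (ℕ → Bool) => mix m q.1 q.2) ∧
    IsOpenMap fun q : (ℕ → Bool) × (ℕ → Bool) => mix m q.1 q.2 := by
  refine ⟨continuous_pi fun i => by unfold mix; split_ifs <;> fun_prop, ?_⟩
  refine IsOpenMap.of_sections fun q =>
    ⟨fun v => (fun i => if i.unpair.1 < m then v i else q.1 i,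
      fun i => if i.unpair.1 < m then q.2 i else v i), ?_, ?_, fun v => ?_⟩
  · refine ((continuous_pi fun i => ?_).prodMk (continuous_pi fun i => ?_)).continuousAt <;>
      split_ifs <;> fun_prop
  · refine Prod.ext (funext fun i => ?_) (funext fun i => ?_) <;>
      by_cases h : i.unpair.1 < m <;> simp [mix, h]
  · funext i
    by_cases h : i.unpair.1 < m <;> simp [mix, h]

theorem exists_seq_open {C : Set (ℕ → Bool)} (hC : C ∈ residual (ℕ → Bool)) :
    ∃ D : ℕ → Set (ℕ → Bool), (∀ q, IsOpen (D q)) ∧ (∀ q, Dense (D q)) ∧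
      ∀ x, (∀ q, x ∈ D q) → x ∈ C := by
  obtain ⟨S, hSo, hSd, hSc, hS⟩ := mem_residual_iff.1 hC
  obtain ⟨D, hD⟩ := (hSc.insert Set.univ).exists_eq_range (Set.insert_nonempty _ _)
  have hmem : ∀ q, D q = Set.univ ∨ D q ∈ S := fun q => by
    have : D q ∈ insert Set.univ S := hD ▸ Set.mem_range_self q
    exact this
  refine ⟨D, fun q => ?_, fun q => ?_, fun x hx => hS fun O hO => ?_⟩
  · rcases hmem q with h | h
    exacts [h ▸ isOpen_univ, hSo _ h]
  · rcases hmem q with h | h
    exacts [h ▸ dense_univ, hSd _ h]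
  · obtain ⟨q, rfl⟩ : O ∈ Set.range D := hD ▸ Set.mem_insert_of_mem _ hO
    exact hx q

variable {e : (ℕ → Bool) → ℕ} {f : ℕ → (ℕ → Bool) → ℕ → ℕ}

theorem locally_constant_of_guess (hf : ∀ q n a, MeasurableSet {G | f q G n = a})
    (h : ∀ᶠ G in residual (ℕ → Bool), ∃ q, ∀ n, e (col G n) = f q G n) (s : List Bool) :
    ∃ t a, cyl t ⊆ cyl s ∧ ∀ᶠ x in residual (ℕ → Bool), x ∈ cyl t → e x = a := by
  classical
  by_contra hno
  choose U hUo hU using fun q n a => (hf q n a).residualEq_isOpen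
  have hC : ∀ᶠ G in residual (ℕ → Bool), (∃ q, ∀ n, e (col G n) = f q G n) ∧
      ∀ q n a, (f q G n = a ↔ G ∈ U q n a) :=
    h.and (eventually_countable_forall.2 fun q => eventually_countable_forall.2 fun n =>
      eventually_countable_forall.2 fun a => (eventuallyEq_set.1 (hU q n a)).mono fun x hx => hx)
  obtain ⟨D, hDo, hDd, hD⟩ := exists_seq_open hC
  have hD' : ∀ᶠ G in residual (ℕ → Bool), ∀ q, G ∈ D q :=
    eventually_countable_forall.2 fun q => residual_of_dense_open (hDo q) (hDd q)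
  -- a state: the columns below `m` and the bits below `L` of `z` are fixed
  let Inv : ℕ → (ℕ → Bool) → Prop := fun m z =>
    ∀ᶠ R in residual (ℕ → Bool), ∀ q, mix m z R ∈ D q
  let Ext : ℕ × (ℕ → Bool) × ℕ → (ℕ → Bool) → Prop := fun st w =>
    ∀ i, i.unpair.1 < st.1 ∨ i < st.2.2 → w i = st.2.1 i
  have step : ∀ q m z L, Inv m z → ∃ m' z' L', m < m' ∧ L ≤ L' ∧ Inv m' z' ∧
      Ext (m, z, L) z' ∧ ∀ w, Ext (m', z', L') w →
        w ∈ D q ∧ ((∀ q', w ∈ D q') → ∃ n, e (col w n) ≠ f q w n) := by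
    intro q m z L hinv
    set n := max m L
    have hO : IsOpen (cyl (pre z L) ∩ (fun R => col R n) ⁻¹' cyl s) :=
      (isOpen_cyl _).inter ((isOpen_cyl _).preimage (continuous_col n))
    have hne : (cyl (pre z L) ∩ (fun R => col R n) ⁻¹' cyl s).Nonempty := by
      refine ⟨fun i => if i.unpair.1 = n then s.getI i.unpair.2 else z i,
        mem_cyl_pre.2 fun i hi => ?_, fun i hi => by simp [col]⟩
      have := Nat.unpair_left_le i
      rw [if_neg (by omega)]
    obtain ⟨R, ⟨hRz, hRs⟩, hR⟩ := exists_of_residual hinv hO hne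
    set w₀ := mix m z R with hw₀
    have hw₀z : ∀ i, i.unpair.1 < m ∨ i < L → w₀ i = z i := by
      intro i hi
      by_cases h : i.unpair.1 < m
      · simp [hw₀, mix, h]
      · simp [hw₀, mix, h, mem_cyl_pre.1 hRz i (hi.resolve_left h)]
    have hw₀s : col w₀ n ∈ cyl s := fun i hi => by
      rw [show col w₀ n i = col R n i by simp [hw₀, col, mix, show ¬ n < m by omega]]
      exact hRs i hi
    obtain ⟨M₁, hM₁⟩ := exists_cyl (hUo q n (f q w₀ n)) (((hD w₀ hR).2 q n _).1 rfl)
    obtain ⟨M₂, hM₂⟩ := exists_cyl (hDo q) (hR q)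
    set L' := max L (max M₁ M₂)
    set t := pre (col w₀ n) (max L' s.length)
    have hts : cyl t ⊆ cyl s := fun x hx i hi => by
      rw [mem_cyl_pre.1 hx i (by omega)]; exact hw₀s i hi
    have hbad : ∃ᶠ x in residual (ℕ → Bool), ¬(x ∈ cyl t → e x = f q w₀ n) :=
      not_eventually.1 fun hev => hno ⟨t, _, hts, hev⟩
    have hP : ∀ᶠ R' in residual (ℕ → Bool),
        ∀ᶠ R'' in residual (ℕ → Bool), ∀ q', mix m z (mix (n + 1) R' R'') ∈ D q' :=
      residual_sections (residual_preimage (mix_open (n + 1)).1 (mix_open (n + 1)).2 hinv)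
    have hP' := residual_sections (residual_preimage (continuous_rep n) (isOpenMap_rep n) hP)
    obtain ⟨x, hxbad, hx⟩ := (hbad.and_eventually hP').exists
    rw [Classical.not_imp] at hxbad
    obtain ⟨hxt, hxe⟩ := hxbad
    obtain ⟨S, hSw, hS⟩ := exists_of_residual hx (isOpen_cyl (pre w₀ L'))
      ⟨w₀, mem_cyl_pre.2 fun _ _ => rfl⟩
    set z' := mix m z (rep n (x, S))
    have hagree : ∀ i < L', z' i = w₀ i := by
      intro i hi
      by_cases h : i.unpair.1 < m
      · simp [z', hw₀, mix, h]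
      simp only [z', mix, h, if_false, rep]
      by_cases h2 : i.unpair.1 = n
      · have := Nat.unpair_right_le i
        rw [if_pos h2, mem_cyl_pre.1 hxt _ (by omega), col, ← h2, Nat.pair_unpair]
      · rw [if_neg h2, mem_cyl_pre.1 hSw i hi]
    refine ⟨n + 1, z', L', by omega, le_max_left _ _, ?_, fun i hi => ?_, fun w hw => ?_⟩
    · refine (hS : ∀ᶠ R'' in residual (ℕ → Bool), _).mono fun R'' hR'' q' => ?_
      convert hR'' q' using 1
      funext i
      by_cases h : i.unpair.1 < m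
      · simp [mix, z', h, show i.unpair.1 < n + 1 by omega]
      · by_cases h2 : i.unpair.1 < n + 1 <;> simp [mix, z', h, h2]
    · rcases hi with h | h
      · exact if_pos h
      · exact (hagree i (by dsimp only at h; omega)).trans (hw₀z i (Or.inr h))
    · have hcol : col w n = x := funext fun i => by
        show w _ = _
        rw [hw _ (Or.inl (by simp))]
        simp [z', mix, rep, show ¬ n < m by omega]
      have hww : ∀ i < L', w i = w₀ i := fun i hi => (hw i (Or.inr hi)).trans (hagree i hi)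
      refine ⟨hM₂ (mem_cyl_pre.2 fun i hi => hww i (by omega)), fun hwC => ⟨n, ?_⟩⟩
      rw [hcol, ((hD w hwC).2 q n (f q w₀ n)).2
        (hM₁ (mem_cyl_pre.2 fun i hi => hww i (by omega)))]
      exact hxe
  let St := {st : ℕ × (ℕ → Bool) × ℕ // Inv st.1 st.2.1}
  have step' : ∀ q (st : St), ∃ st' : St, st.1.1 < st'.1.1 ∧ st.1.2.2 ≤ st'.1.2.2 ∧
      Ext st.1 st'.1.2.1 ∧ ∀ w, Ext st'.1 w →
        w ∈ D q ∧ ((∀ q', w ∈ D q') → ∃ n, e (col w n) ≠ f q w n) := by
    rintro q ⟨⟨m, z, L⟩, hinv⟩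
    obtain ⟨m', z', L', h1, h2, h3, h4, h5⟩ := step q m z L hinv
    exact ⟨⟨(m', z', L'), h3⟩, h1, h2, h4, h5⟩
  choose nx hlt hle hext hkey using step'
  have h0 : Inv 0 zseq := hD'.mono fun R hR q => by
    rw [show mix 0 zseq R = R from funext fun i => by simp [mix]]
    exact hR q
  let st : ℕ → St := fun q => Nat.rec ⟨(0, zseq, 0), h0⟩ (fun q st => nx q st) q
  have hm : ∀ q, q ≤ (st q).1.1 := by
    intro q
    induction q with
    | zero => exact Nat.zero_le _
    | succ q ih => exact Nat.succ_le_of_lt (lt_of_le_of_lt ih (hlt q (st q)))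
  have hmono : ∀ q q', q ≤ q' →
      ((st q).1.1 ≤ (st q').1.1 ∧ (st q).1.2.2 ≤ (st q').1.2.2) ∧ Ext (st q).1 (st q').1.2.1 := by
    intro q q' hq
    induction hq with
    | refl => exact ⟨⟨le_rfl, le_rfl⟩, fun _ _ => rfl⟩
    | @step k _ ih =>
      have a1 := hlt k (st k)
      have a2 := hle k (st k)
      refine ⟨⟨ih.1.1.trans a1.le, ih.1.2.trans a2⟩, fun i hi => ?_⟩
      refine (hext k (st k) i ?_).trans (ih.2 i hi)
      rcases hi with h | h
      · exact Or.inl (lt_of_lt_of_le h ih.1.1)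
      · exact Or.inr (lt_of_lt_of_le h ih.1.2)
  let w : ℕ → Bool := fun i => (st (i + 1)).1.2.1 i
  have hw : ∀ q, Ext (st q).1 w := by
    intro q i hi
    rcases le_total q (i + 1) with h | h
    · exact (hmono q _ h).2 i hi
    · exact ((hmono _ q h).2 i (Or.inl (lt_of_le_of_lt (Nat.unpair_left_le i) (hm (i + 1))))).symm
  have hwC : ∀ q, w ∈ D q := fun q => (hkey q (st q) w (hw (q + 1))).1
  obtain ⟨q, hq⟩ := (hD w hwC).1
  obtain ⟨n, hn⟩ := (hkey q (st q) w (hw (q + 1))).2 hwC
  exact hn (hq n)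

end Vale.Agent.P327.Borel
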