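import Vale.Agent.P327.Repr.Meet
import Vale.Agent.P327.Repr.Diag

/-! Every degree automorphism has a representative continuous on a comeagre set. -/

namespace Vale.Agent.P327.Borel

open Filter Homeo Topology

theorem exists_rep_bp {π : (ℕ → Bool) → ℕ → Bool} (hπ : RepAuto π) :
    ∃ F, RepAuto F ∧ (∀ x, TuringEquivalent (orc (F x)) (orc (π x))) ∧
      ∃ C ∈ residual (ℕ → Bool), ContOn F C := by
  classical
  obtain ⟨B, hBm, hB⟩ := exists_cover hπ
  have hex : ∀ x, ∃ j, TEq (B j x) (π x) := fun x =>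
    (hB x).imp fun j (hj : B j x = π x) => hj ▸ TEq.rfl'
  let e : (ℕ → Bool) → ℕ := fun x => Nat.find (hex x)
  obtain ⟨K, hK⟩ := meet_generic
  let P : ℕ → (ℕ → Bool) → ℕ → ℕ → Prop := fun q G n i =>
    IsMeet (B i (col G n)) (jn (π (col K n)) (B q.unpair.1 (xadd G K))) (B q.unpair.2 G)
  let f : ℕ → (ℕ → Bool) → ℕ → ℕ := fun q G n =>
    if h : ∃ i, P q G n i then Nat.find h else 0
  have hf : ∀ q n a, MeasurableSet {G | f q G n = a} := by
    intro q n a
    have heq : {G | f q G n = a} = {G | (P q G n a ∧ ∀ i, i < a → ¬ P q G n i) ∨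
        (a = 0 ∧ ∀ i, ¬ P q G n i)} := by
      ext G
      simp only [Set.mem_ofPred_eq, f]
      split_ifs with h
      · rw [Nat.find_eq_iff]
        exact ⟨fun ha => Or.inl ha, fun ha => ha.elim id fun ha => absurd h (by simpa using ha.2)⟩
      · simp only [not_exists] at h
        exact ⟨fun ha => Or.inr ⟨ha.symm, h⟩, fun ha => ha.elim (fun ha => absurd ha.1 (h a))
          fun ha => ha.1.symm⟩
    have hP : ∀ i, Measurable fun G => P q G n i := fun i =>
      measurable_isMeet ((hBm i).comp (continuous_col n).measurable)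
        (continuous_jn.measurable.comp (measurable_const.prodMk ((hBm _).comp
          (continuous_xadd.comp (continuous_id.prodMk continuous_const)).measurable)))
        (hBm _)
    rw [heq]
    exact measurableSet_setOfPred.2 (((hP a).and (Measurable.forall fun i =>
      measurable_const.imp (hP i).not)).or (measurable_const.and (Measurable.forall fun i => (hP i).not)))
  have hguess : ∀ᶠ G in residual (ℕ → Bool), ∃ q, ∀ n, e (col G n) = f q G n := by
    filter_upwards [hK] with G hG
    refine ⟨Nat.pair (e (xadd G K)) (e G), fun n => ?_⟩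
    have hm : IsMeet (col G n) (jn (col K n) (xadd G K)) G :=
      ⟨col_tle_xor G K n, col_le G n, hG n⟩
    have hj := Nat.find_spec (hex (xadd G K))
    have hk := Nat.find_spec (hex G)
    have hm' : IsMeet (π (col G n))
        (jn (π (col K n)) (B (e (xadd G K)) (xadd G K))) (B (e G) G) :=
      (hπ.map_meet hm).congr
        ⟨jn_le (jn_left _ _) (hj.1.trans (jn_right _ _)),
          jn_le (jn_left _ _) (hj.2.trans (jn_right _ _))⟩ hk
    have hiff : ∀ i, P (Nat.pair (e (xadd G K)) (e G)) G n i ↔ TEq (B i (col G n)) (π (col G n)) :=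
      fun i => by simp only [P, Nat.unpair_pair]; exact hm'.iff_teq
    have hex' : ∃ i, P (Nat.pair (e (xadd G K)) (e G)) G n i :=
      ⟨e (col G n), (hiff _).2 (Nat.find_spec (hex (col G n)))⟩
    simp only [f, dif_pos hex', e]
    exact le_antisymm (Nat.find_min' _ ((hiff _).1 (Nat.find_spec hex')))
      (Nat.find_min' _ ((hiff _).2 (Nat.find_spec (hex (col G n)))))
  refine ⟨fun x => B (e x) x, ⟨fun x y => ?_, fun y => ?_⟩,
    fun x => Nat.find_spec (hex x), ?_⟩
  · exact (hπ.ord x y).trans
      ⟨fun h => ((Nat.find_spec (hex x)).1.trans h).trans (Nat.find_spec (hex y)).2,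
        fun h => ((Nat.find_spec (hex x)).2.trans h).trans (Nat.find_spec (hex y)).1⟩
  · obtain ⟨x, h1, h2⟩ := hπ.surj y
    exact ⟨x, (Nat.find_spec (hex x)).1.trans h1, h2.trans (Nat.find_spec (hex x)).2⟩
  choose C hCr hC using fun j => exists_contOn (hBm j)
  let Good : List Bool → ℕ → Prop := fun t a =>
    ∀ᶠ x in residual (ℕ → Bool), x ∈ cyl t → e x = a
  let O : Set (ℕ → Bool) := ⋃ (t : List Bool) (a : ℕ) (_ : Good t a), cyl t
  have hO : IsOpen O := isOpen_iUnion fun t => isOpen_iUnion fun a => isOpen_iUnion fun _ =>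
    isOpen_cyl t
  have hOd : Dense O := by
    rw [dense_iff_inter_open]
    intro W hW ⟨z, hz⟩
    obtain ⟨L, hL⟩ := exists_cyl hW hz
    obtain ⟨t, a, ht, hta⟩ := locally_constant_of_guess hf hguess (pre z L)
    obtain ⟨y, hy⟩ := cyl_nonempty t
    refine ⟨y, hL (ht hy), ?_⟩
    simp only [O, Set.mem_iUnion]
    exact ⟨t, a, hta, hy⟩
  refine ⟨{x | (∀ j, x ∈ C j) ∧ x ∈ O ∧ ∀ t a, Good t a → x ∈ cyl t → e x = a}, ?_, ?_⟩
  · show ∀ᶠ x in residual (ℕ → Bool), _
    have hOr : ∀ᶠ x in residual (ℕ → Bool), x ∈ O := residual_of_dense_open hO hOd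
    refine (eventually_countable_forall.2 hCr).and (hOr.and
      (eventually_countable_forall.2 fun t => eventually_countable_forall.2 fun a => ?_))
    by_cases h : Good t a
    · exact h.mono fun x hx _ => hx
    · exact Eventually.of_forall fun x h' => absurd h' h
  · rintro x ⟨hxC, hxO, hxG⟩ L
    simp only [O, Set.mem_iUnion] at hxO
    obtain ⟨t, a, hta, hxt⟩ := hxO
    obtain ⟨M, hM⟩ := hC (e x) x (hxC _) L
    refine ⟨max t.length M, fun y ⟨hyC, _, hyG⟩ hyx => ?_⟩
    have hey : e y = e x :=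
      (hyG t a hta (mem_cyl_of hxt fun i hi => hyx i (by omega))).trans (hxG t a hta hxt).symm
    simp only [hey]
    exact hM y (hyC _) fun i hi => hyx i (by omega)

end Vale.Agent.P327.Borel
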