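import Vale.Agent.P327.Repr.Select

/-! Every column of a generic real is a meet of two reals, and automorphisms preserve this. -/

namespace Vale.Agent.P327.Borel

open Nat.Partrec Filter Homeo Topology

theorem col_tle_xor (G K : ℕ → Bool) (n : ℕ) : TLe (col G n) (jn (col K n) (xadd G K)) := by
  have h : col G n = xadd (col (xadd G K) n) (col K n) :=
    funext fun i => by simp [col, xadd]
  rw [h]
  exact (xorAct.red _ _).trans (jn_le ((col_le _ _).trans (jn_right _ _)) (jn_left _ _))

/-- Conditions where `d` on `G` disagrees with `c` on the twisted real. -/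
def Dis (c d : Code) (n : ℕ) : Set ((ℕ → Bool) × (ℕ → Bool)) :=
  ⋃ (k : ℕ) (v : ℕ) (v' : ℕ) (_ : v ≠ v'),
    {z | Outs d z.2 k v} ∩ {z | Outs c (jn (col z.1 n) (xadd z.2 z.1)) k v'}

theorem isOpen_dis (c d : Code) (n : ℕ) : IsOpen (Dis c d n) := by
  refine isOpen_iUnion fun k => isOpen_iUnion fun v => isOpen_iUnion fun v' =>
    isOpen_iUnion fun _ => ((isOpen_outs d k v).preimage continuous_snd).inter ?_
  exact (isOpen_outs c k v').preimage (continuous_jn.comp
    (((continuous_col n).comp continuous_fst).prodMk
      (continuous_xadd.comp (continuous_snd.prodMk continuous_fst))))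

/-- Guessed initial segment of a real with column `n` from `p` and the first `M` bits from `base`. -/
def guess (base : List Bool) (n : ℕ) (q : List Bool × List Bool) : List Bool :=
  (List.range (min q.2.length q.1.length)).map fun i =>
    bif decide (i < base.length) then base.getI i
      else bif decide (i.unpair.1 = n) then q.1.getI i.unpair.2 else q.2.getI i

theorem primrec_guess (base : List Bool) (n : ℕ) : Primrec (guess base n) := by
  refine Primrec.list_map (Primrec.list_range.comp (Primrec.nat_min.comp
    (Primrec.list_length.comp Primrec.snd) (Primrec.list_length.comp Primrec.fst))) ?_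
  exact (Primrec.cond (PrimrecPred.decide (Primrec.nat_lt.comp Primrec.snd (Primrec.const _)))
    (primrec_getI_bool.comp (Primrec.const base) Primrec.snd)
    (Primrec.cond (PrimrecPred.decide (Primrec.eq.comp
        (Primrec.fst.comp (Primrec.unpair.comp Primrec.snd)) (Primrec.const n)))
      (primrec_getI_bool.comp (Primrec.fst.comp Primrec.fst)
        (Primrec.snd.comp (Primrec.unpair.comp Primrec.snd)))
      (primrec_getI_bool.comp (Primrec.snd.comp Primrec.fst) Primrec.snd))).to₂

theorem meet_of_undisputed {c d : Code} {n : ℕ} {K G y : ℕ → Bool}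
    (hcl : (K, G) ∈ (closure (Dis c d n))ᶜ)
    (hc : Computes c (jn (col K n) (xadd G K)) y) (hd : Computes d G y) : TLe y (col G n) := by
  obtain ⟨P, Q, hP, hQ, hKP, hGQ, hPQ⟩ :=
    isOpen_prod_iff.1 isClosed_closure.isOpen_compl K G hcl
  obtain ⟨M₁, hM₁⟩ := exists_cyl hP hKP
  obtain ⟨M₂, hM₂⟩ := exists_cyl hQ hGQ
  set M := max M₁ M₂
  let g : List Bool × ℕ → Option Bool := fun p =>
    ((Encodable.decode p.1.length.unpair.1 : Option (List Bool)).bind fun s =>
      Code.evaln p.1.length.unpair.2 d
        (Encodable.encode ((guess (pre G M) n (p.1, s), p.2) : List Bool × ℕ))).map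
      fun v => decide (v = 1)
  have hN : Primrec fun p : List Bool × ℕ => p.1.length.unpair :=
    Primrec.unpair.comp (Primrec.list_length.comp Primrec.fst)
  have hg : Computable g := by
    refine (Primrec.option_map (Primrec.option_bind
      (Primrec.decode.comp (Primrec.fst.comp hN)) ?_) ?_).to_comp
    · exact (Code.primrec_evaln.comp
        (((Primrec.snd.comp (hN.comp Primrec.fst)).pair (Primrec.const d)).pair
          (Primrec.encode.comp (((primrec_guess (pre G M) n).comp
            ((Primrec.fst.comp Primrec.fst).pair Primrec.snd)).pair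
              (Primrec.snd.comp Primrec.fst))))).to₂
    · exact (PrimrecPred.decide (Primrec.eq.comp Primrec.snd (Primrec.const 1))).to₂
  refine reducible_of_search g hg (fun N k b hb => ?_) fun k => ?_
  · simp only [g, Option.map_eq_some_iff, Option.bind_eq_some_iff] at hb
    obtain ⟨v, ⟨s, -, hv⟩, rfl⟩ := hb
    set L := min s.length (pre (col G n) N).length with hL
    let G' : ℕ → Bool := fun i =>
      if i < M ∨ i.unpair.1 = n then G i else if i < L then s.getI i else G i
    let K' : ℕ → Bool := fun i => if i.unpair.1 = n then K i else xor (G' i) (xor (G i) (K i))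
    have hguess : guess (pre G M) n (pre (col G n) N, s) = pre G' L := by
      refine List.map_congr_left fun i hi => ?_
      rw [List.mem_range] at hi
      have hiN : i < N := by simp only [pre_length] at hi; omega
      have := Nat.unpair_right_le i
      simp only [pre_length, G', if_pos (show i < L from hL ▸ by simpa using hi)]
      by_cases h1 : i < M
      · simp [h1, pre_getI h1]
      by_cases h2 : i.unpair.1 = n
      · rw [decide_eq_false h1, decide_eq_true h2, if_pos (Or.inr h2)]
        simp only [cond_false, cond_true]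
        rw [pre_getI (by omega), col, ← h2, Nat.pair_unpair]
      · simp [h1, h2]
    have hH : jn (col K' n) (xadd G' K') = jn (col K n) (xadd G K) := by
      congr 1
      · funext i; simp [col, K']
      · funext i
        by_cases h2 : i.unpair.1 = n
        · simp [xadd, K', G', h2]
        · cases hx : G' i <;> cases hy : G i <;> cases hz : K i <;> simp [xadd, K', h2, hx, hy, hz]
    have hmem : (K', G') ∈ (closure (Dis c d n))ᶜ := by
      refine hPQ ⟨hM₁ (mem_cyl_pre.2 fun i hi => ?_), hM₂ (mem_cyl_pre.2 fun i hi => ?_)⟩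
      · simp [K', G', show i < M by omega]
      · simp [G', show i < M by omega]
    have hvd : Outs d G' k v := ⟨L, by rw [← hguess]; exact Code.evaln_sound hv⟩
    have hvc : Outs c (jn (col K' n) (xadd G' K')) k (if y k then 1 else 0) :=
      hH.symm ▸ (hc k _).2 rfl
    have hveq : v = if y k then 1 else 0 := by
      by_contra hne
      refine hmem (subset_closure ?_)
      simp only [Dis, Set.mem_iUnion]
      exact ⟨k, v, _, hne, hvd, hvc⟩
    cases hy : y k <;> simp [hveq, hy]
  · obtain ⟨L, hL⟩ := (hd k _).2 rfl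
    obtain ⟨f, hf⟩ := Code.evaln_complete.1 hL
    refine ⟨Nat.pair (Encodable.encode (pre G L)) (max f L), ?_⟩
    have hge := Nat.right_le_pair (Encodable.encode (pre G L)) (max f L)
    have hguess : ∀ N, L ≤ N → guess (pre G M) n (pre (col G n) N, pre G L) = pre G L := by
      intro N hN
      simp only [guess, pre_length, min_eq_left hN]
      refine List.map_congr_left fun i hi => ?_
      rw [List.mem_range] at hi
      have := Nat.unpair_right_le i
      by_cases h1 : i < M
      · simp [h1, pre_getI h1]
      by_cases h2 : i.unpair.1 = n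
      · rw [decide_eq_false h1, decide_eq_true h2]
        simp only [cond_false, cond_true]
        rw [pre_getI (by omega), col, ← h2, Nat.pair_unpair]
      · simp [h1, h2, pre_getI hi]
    simp only [g, pre_length, Nat.unpair_pair, Encodable.encodek, Option.bind_some,
      Option.isSome_map, hguess _ (le_trans (le_max_right f L) hge)]
    exact Option.isSome_iff_exists.2 ⟨_, Code.evaln_mono (le_max_left _ _) hf⟩

theorem meet_generic : ∃ K, ∀ᶠ G in residual (ℕ → Bool), ∀ n y,
    TLe y (jn (col K n) (xadd G K)) → TLe y G → TLe y (col G n) := by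
  have h1 : ∀ᶠ z in residual ((ℕ → Bool) × (ℕ → Bool)),
      ∀ (c d : Code) (n : ℕ), z ∈ Dis c d n ∨ z ∈ (closure (Dis c d n))ᶜ :=
    eventually_countable_forall.2 fun c => eventually_countable_forall.2 fun d =>
      eventually_countable_forall.2 fun n => residual_open_or (isOpen_dis c d n)
  obtain ⟨K, -, hK⟩ := exists_of_residual (residual_sections h1) isOpen_univ Set.univ_nonempty
  refine ⟨K, hK.mono fun G hG n y hy1 hy2 => ?_⟩
  obtain ⟨c, hc⟩ := tle_iff.1 hy1
  obtain ⟨d, hd⟩ := tle_iff.1 hy2
  rcases hG c d n with h | h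
  · exfalso
    simp only [Dis, Set.mem_iUnion] at h
    obtain ⟨k, v, v', hne, hv, hv'⟩ := h
    exact hne (((hd k v).1 hv).trans ((hc k v').1 hv').symm)
  · exact meet_of_undisputed h hc hd

/-- `w` is a meet of `a` and `b`. -/
def IsMeet (w a b : ℕ → Bool) : Prop := TLe w a ∧ TLe w b ∧ ∀ y, TLe y a → TLe y b → TLe y w

theorem isMeet_iff {w a b : ℕ → Bool} : IsMeet w a b ↔
    TLe w a ∧ TLe w b ∧ ∀ c, TLe (Phi c a) a → TLe (Phi c a) b → TLe (Phi c a) w := by
  refine ⟨fun h => ⟨h.1, h.2.1, fun c => h.2.2 _⟩, fun h => ⟨h.1, h.2.1, fun y ha hb => ?_⟩⟩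
  obtain ⟨c, rfl⟩ := exists_phi ha
  exact h.2.2 c ha hb

theorem measurable_isMeet {X : Type*} [MeasurableSpace X] {w a b : X → ℕ → Bool}
    (hw : Measurable w) (ha : Measurable a) (hb : Measurable b) :
    Measurable fun x => IsMeet (w x) (a x) (b x) := by
  simp only [isMeet_iff]
  refine (measurable_tle hw ha).and ((measurable_tle hw hb).and (Measurable.forall fun c => ?_))
  have hp : Measurable fun x => Phi c (a x) := (measurable_phi c).comp ha
  exact (measurable_tle hp ha).imp ((measurable_tle hp hb).imp (measurable_tle hp hw))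

theorem IsMeet.congr {w a a' b b' : ℕ → Bool} (h : IsMeet w a b) (ha : TEq a' a) (hb : TEq b' b) :
    IsMeet w a' b' :=
  ⟨h.1.trans ha.2, h.2.1.trans hb.2,
    fun y hya hyb => h.2.2 y (hya.trans ha.1) (hyb.trans hb.1)⟩

theorem IsMeet.iff_teq {w a b w' : ℕ → Bool} (h : IsMeet w a b) : IsMeet w' a b ↔ TEq w' w := by
  refine ⟨fun h' => ⟨h.2.2 _ h'.1 h'.2.1, h'.2.2 _ h.1 h.2.1⟩, fun e => ⟨e.1.trans h.1,
    e.1.trans h.2.1, fun y ha hb => (h.2.2 y ha hb).trans e.2⟩⟩

variable {F : (ℕ → Bool) → ℕ → Bool}

theorem RepAuto.map_meet (hF : RepAuto F) {w u v b : ℕ → Bool} (h : IsMeet w (jn u v) b) :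
    IsMeet (F w) (jn (F u) (F v)) (F b) := by
  refine ⟨hF.map_jn h.1, (hF.ord _ _).1 h.2.1, fun y ha hb => ?_⟩
  obtain ⟨x, hx1, hx2⟩ := hF.surj y
  have hj : TLe (jn (F u) (F v)) (F (jn u v)) :=
    jn_le ((hF.ord _ _).1 (jn_left _ _)) ((hF.ord _ _).1 (jn_right _ _))
  exact hx2.trans ((hF.ord _ _).1 (h.2.2 x ((hF.ord _ _).2 ((hx1.trans ha).trans hj))
    ((hF.ord _ _).2 (hx1.trans hb))))

end Vale.Agent.P327.Borel
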