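import Vale.Agent.P327.Repr.Basic

/-! A generic pair coding reals by columns gives a countable Borel cover of an automorphism. -/

namespace Vale.Agent.P327.Borel

open Nat.Partrec Filter Homeo Topology

/-- The real which follows `A` on the columns in `y` and `B` on the others. -/
def sel (y A B : ℕ → Bool) : ℕ → Bool := fun i => bif y i.unpair.1 then A i else B i

theorem sel_le (y A B : ℕ → Bool) : TLe (sel y A B) (jn y (jn A B)) := by
  have h4 : Primrec fun p : List Bool × ℕ => 4 * p.2 :=
    Primrec.nat_mul.comp (Primrec.const 4) Primrec.snd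
  refine reducible_of_prefix (fun i => 4 * i + 4)
    (fun p => bif p.1.getI (2 * p.2.unpair.1) then p.1.getI (4 * p.2 + 1) else p.1.getI (4 * p.2 + 3))
    (Primrec.nat_add.comp (Primrec.nat_mul.comp (Primrec.const 4) Primrec.id)
      (Primrec.const 4)).to_comp
    (Primrec.cond (primrec_getI_bool.comp Primrec.fst (Primrec.nat_mul.comp (Primrec.const 2)
        (Primrec.fst.comp (Primrec.unpair.comp Primrec.snd))))
      (primrec_getI_bool.comp Primrec.fst (Primrec.nat_add.comp h4 (Primrec.const 1)))
      (primrec_getI_bool.comp Primrec.fst (Primrec.nat_add.comp h4 (Primrec.const 3)))).to_comp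
    fun i => ?_
  have := Nat.unpair_left_le i
  dsimp only
  rw [pre_getI (by omega), pre_getI (by omega), pre_getI (by omega)]
  simp [sel, jn, show (4 * i + 1) % 2 = 1 by omega, show (4 * i + 1) / 2 = 2 * i by omega,
    show (4 * i + 3) % 2 = 1 by omega, show (4 * i + 3) / 2 = 2 * i + 1 by omega,
    show (2 * i + 1) / 2 = i by omega]

theorem sel_pos {y : ℕ → Bool} {n : ℕ} (h : y n = true) (A B : ℕ → Bool) :
    TLe (col A n) (sel y A B) := by
  have : col A n = col (sel y A B) n := funext fun i => by simp [col, sel, h]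
  rw [this]
  exact col_le _ _

/-- Reals agreeing below `L`. -/
def Agree (L : ℕ) (x y : ℕ → Bool) : Prop := ∀ i < L, x i = y i

theorem sel_extend (c : Code) (n M : ℕ) (hn : n < M) (p : Fin M → Bool) (A B : ℕ → Bool) (L : ℕ)
    (hJ : ∀ i < L, M ≤ i.unpair.1 → A i = B i) :
    ∃ A₁ B₁ L₁, L ≤ L₁ ∧ Agree L A₁ A ∧ Agree L B₁ B ∧
      (∀ i < L₁, M ≤ i.unpair.1 → A₁ i = B₁ i) ∧
      ∀ y A' B', (∀ j : Fin M, y j = p j) → y n = false → Agree L₁ A' A₁ → Agree L₁ B' B₁ →
        ¬ Computes c (sel y A' B') (col A' n) := by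
  set u : ℕ → Bool := sel (fun j => if h : j < M then p ⟨j, h⟩ else true) A B with hu
  have hsel : ∀ y A' B' i, (∀ j : Fin M, y j = p j) → i < L → A' i = A i → B' i = B i →
      sel y A' B' i = u i := by
    intro y A' B' i hy hi hA hB
    simp only [hu, sel, hA, hB]
    by_cases h : i.unpair.1 < M
    · rw [dif_pos h, ← hy ⟨_, h⟩]
    · rw [dif_neg h, hJ i hi (by omega)]
      cases y i.unpair.1 <;> rfl
  by_cases ht : ∃ t L' v, Agree L t u ∧ v ∈ c.eval (Encodable.encode ((pre t L', L) : List Bool × ℕ))
  · obtain ⟨t, L', v, htu, hv⟩ := ht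
    let k := Nat.pair n L
    have hk : L ≤ k := Nat.right_le_pair n L
    refine ⟨fun i => if i < L then A i else if i = k then !decide (v = 1) else t i,
      fun i => if i < L then B i else t i, max L (max L' (k + 1)), le_max_left _ _,
      fun i hi => if_pos hi, fun i hi => if_pos hi, fun i hi hM => ?_, ?_⟩
    · dsimp only
      by_cases h : i < L
      · simp [h, hJ i h hM]
      · have : i ≠ k := by
          rintro rfl
          simp [k] at hM
          omega
        simp [h, this]
    · intro y A' B' hy hyn hA hB hcomp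
      have he : pre (sel y A' B') L' = pre t L' := pre_eq_of fun i hi => by
        have hA' := hA i (by omega)
        have hB' := hB i (by omega)
        dsimp only at hA' hB'
        by_cases h : i < L
        · rw [if_pos h] at hA' hB'
          rw [hsel y A' B' i hy h hA' hB', htu i h]
        · rw [if_neg h] at hA' hB'
          simp only [sel, hA', hB']
          by_cases hik : i = k
          · subst hik
            simp [k, hyn]
          · rw [if_neg hik]
            cases y i.unpair.1 <;> rfl
      have hout : Outs c (sel y A' B') L v := ⟨L', by rw [he]; exact hv⟩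
      have h1 := (hcomp L v).1 hout
      have h2 := hA k (by omega)
      dsimp only at h2
      rw [if_neg (by omega), if_pos rfl] at h2
      change v = if A' k then 1 else 0 at h1
      rw [h2] at h1
      by_cases hv1 : v = 1 <;> simp [hv1] at h1
  · refine ⟨A, B, L, le_rfl, fun _ _ => rfl, fun _ _ => rfl, hJ, ?_⟩
    intro y A' B' hy hyn hA hB hcomp
    obtain ⟨L', hL'⟩ := (hcomp L _).2 rfl
    exact ht ⟨_, L', _, fun i hi => hsel y A' B' i hy hi (hA i hi) (hB i hi), hL'⟩

theorem sel_generic : ∀ᶠ z in residual ((ℕ → Bool) × (ℕ → Bool)),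
    ∀ y n, y n = false → ¬ TLe (col z.1 n) (sel y z.1 z.2) := by
  classical
  have key : ∀ (c : Code) (n : ℕ), ∀ᶠ z in residual ((ℕ → Bool) × (ℕ → Bool)),
      ∀ y, y n = false → ¬ Computes c (sel y z.1 z.2) (col z.1 n) := by
    intro c n
    let S : Set ((ℕ → Bool) × (ℕ → Bool)) :=
      {z | ∀ y : ℕ → Bool, y n = false → ¬ Computes c (sel y z.1 z.2) (col z.1 n)}
    refine eventually_of_mem (residual_of_dense_open (isOpen_interior (s := S)) ?_)
      fun z hz => (interior_subset hz : z ∈ S)
    rw [dense_iff_inter_open]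
    intro W hW hne
    obtain ⟨wa, wb, hbox⟩ := exists_box hW hne
    set L₀ := max wa.length wb.length
    set M := max L₀ (n + 1)
    have hfin : ∀ ps : Finset (Fin M → Bool), ∃ A B L, L₀ ≤ L ∧
        Agree L₀ A (fun i => wa.getI i) ∧ Agree L₀ B (fun i => wb.getI i) ∧
        (∀ i < L, M ≤ i.unpair.1 → A i = B i) ∧ ∀ p ∈ ps, ∀ y A' B', (∀ j : Fin M, y j = p j) →
          y n = false → Agree L A' A → Agree L B' B → ¬ Computes c (sel y A' B') (col A' n) := by
      intro ps
      induction ps using Finset.induction_on with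
      | empty =>
        exact ⟨_, _, L₀, le_rfl, fun _ _ => rfl, fun _ _ => rfl,
          fun i hi hM => absurd (Nat.unpair_left_le i) (by omega), by simp⟩
      | insert p ps _ ih =>
        obtain ⟨A, B, L, hL, hA, hB, hJ, hdone⟩ := ih
        obtain ⟨A₁, B₁, L₁, hL₁, hA₁, hB₁, hJ₁, hnew⟩ := sel_extend c n M (by omega) p A B L hJ
        refine ⟨A₁, B₁, L₁, hL.trans hL₁, fun i hi => (hA₁ i (by omega)).trans (hA i hi),
          fun i hi => (hB₁ i (by omega)).trans (hB i hi), hJ₁, ?_⟩
        intro q hq y A' B' hy hyn hA' hB'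
        rcases Finset.mem_insert.1 hq with rfl | hq
        · exact hnew y A' B' hy hyn hA' hB'
        · exact hdone q hq y A' B' hy hyn (fun i hi => (hA' i (by omega)).trans (hA₁ i hi))
            fun i hi => (hB' i (by omega)).trans (hB₁ i hi)
    obtain ⟨A, B, L, hL, hA, hB, -, hdone⟩ := hfin Finset.univ
    refine ⟨(A, B), hbox ⟨fun i hi => hA i (by omega), fun i hi => hB i (by omega)⟩, ?_⟩
    refine mem_interior.2 ⟨cyl (pre A L) ×ˢ cyl (pre B L), ?_,
      (isOpen_cyl _).prod (isOpen_cyl _), mem_cyl_pre.2 fun _ _ => rfl, mem_cyl_pre.2 fun _ _ => rfl⟩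
    rintro z ⟨h1, h2⟩ y hy
    exact hdone (fun j => y j) (Finset.mem_univ _) y z.1 z.2 (fun _ => rfl) hy
      (mem_cyl_pre.1 h1) (mem_cyl_pre.1 h2)
  filter_upwards [eventually_countable_forall.2 fun c => eventually_countable_forall.2 (key c)]
    with z hz y n hy hle
  obtain ⟨c, hc⟩ := tle_iff.1 hle
  exact hz c n y hy hc

variable {F : (ℕ → Bool) → ℕ → Bool}

/-- Countably many Borel maps contain the values of `F` exactly. -/
theorem exists_cover (hF : RepAuto F) : ∃ B : ℕ → (ℕ → Bool) → ℕ → Bool,
    (∀ j, Measurable (B j)) ∧ ∀ x, ∃ j, B j x = F x := by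
  classical
  obtain ⟨⟨A, Bb⟩, hAB⟩ := (dense_of_mem_residual sel_generic).nonempty
  choose inv hinv1 hinv2 using hF.surj
  have hord : ∀ a b, TLe a b ↔ TLe (inv a) (inv b) := fun a b =>
    ⟨fun h => (hF.ord _ _).2 (((hinv1 a).trans h).trans (hinv2 b)),
      fun h => ((hinv2 a).trans ((hF.ord _ _).1 h)).trans (hinv1 b)⟩
  let P : ℕ → ℕ → Bool := fun n => inv (col A n)
  let Z : ℕ → Bool := inv (jn A Bb)
  refine ⟨fun j w n => decide (TLe (P n) (Phi (Denumerable.ofNat Code j) (jn w Z))), fun j => ?_,
    fun x => ?_⟩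
  · refine measurable_pi_iff.2 fun n => measurable_to_bool ?_
    have := measurable_tle (measurable_const (a := P n))
      ((measurable_phi (Denumerable.ofNat Code j)).comp (continuous_jn_right Z).measurable)
    have h2 := measurableSet_setOfPred.2 this
    convert h2 using 1
    ext w
    simp
  · have hu : TLe (inv (sel (F x) A Bb)) (jn x Z) := by
      refine (hF.ord _ _).2 ((hinv1 _).trans (((sel_le (F x) A Bb)).trans (jn_le ?_ ?_)))
      · exact (hF.ord _ _).1 (jn_left _ _)
      · exact (hinv2 _).trans ((hF.ord _ _).1 (jn_right _ _))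
    obtain ⟨c, hc⟩ := exists_phi hu
    refine ⟨Encodable.encode c, funext fun n => ?_⟩
    simp only [Denumerable.ofNat_encode, ← hc, P, ← hord]
    cases hn : F x n
    · exact decide_eq_false (hAB _ n hn)
    · exact decide_eq_true (sel_pos hn A Bb)

end Vale.Agent.P327.Borel
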